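import Vale.Agent.P232.H732.Sets

/-! The relative isoperimetric problem in the cube. -/

open MeasureTheory Set Filter Topology

namespace Vale.Agent.P232.H732

open Vale.Agent.P232

theorem perimeter_congr {n : ℕ} {E F : Set (Fin n → ℝ)} (h : E =ᵐ[volume] F) :
    perimeter E = perimeter F := by
  unfold perimeter
  congr 1
  ext X
  congr 1
  ext hX
  rw [setIntegral_congr_set (h.inter (ae_eq_refl (cube n)))]

theorem vol_congr {n : ℕ} {E F : Set (Fin n → ℝ)} (h : E =ᵐ[volume] F) : vol E = vol F := by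
  unfold vol
  rw [measure_congr (h.inter (ae_eq_refl (cube n)))]

theorem relPerimeter_congr {n : ℕ} {E F : Set (Fin n → ℝ)} (h : E =ᵐ[volume] F) :
    relPerimeter E = relPerimeter F := by
  unfold relPerimeter
  congr 1
  ext X
  congr 1
  ext hX
  rw [setIntegral_congr_set (h.inter (ae_eq_refl (openCube n)))]

theorem volume_openCube_lt (n : ℕ) {E : Set (Fin n → ℝ)} (hE : E ⊆ openCube n) :
    volume E ≠ ⊤ := by
  have h2 : E ⊆ cube n := fun y hy i => ⟨(hE hy i).1.le, (hE hy i).2⟩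
  have h3 := measure_mono (μ := volume) h2
  rw [volume_cube] at h3
  exact (h3.trans_lt ENNReal.one_lt_top).ne

theorem volume_openCube (n : ℕ) : volume (openCube n) = 1 := by
  have : openCube n = Set.pi univ (fun _ => Ioo (0 : ℝ) 1) := by
    ext x
    simp [openCube, Set.mem_pi, Set.mem_Ioo]
  rw [this, volume_pi_pi]
  simp

/-- a.e. equality descends from the mirror sets -/
theorem ae_eq_of_mirror {E F : Set (Fin 3 → ℝ)} (hE : E ⊆ openCube 3) (hF : F ⊆ openCube 3)
    (mE : MeasurableSet E) (mF : MeasurableSet F) (h : mirror E =ᵐ[volume] mirror F) :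
    E =ᵐ[volume] F := by
  have key : ∀ {E F : Set (Fin 3 → ℝ)}, E ⊆ openCube 3 → MeasurableSet E → MeasurableSet F →
      mirror E =ᵐ[volume] mirror F → volume (E \ F) = 0 := by
    intro E F hE mE mF h
    have h1 := vol_mirror (E := E \ F) (sdiff_subset.trans hE) (mE.diff mF)
    have h2 : mirror (E \ F) =ᵐ[volume] (∅ : Set (Fin 3 → ℝ)) := by
      have h3 : mirror (E \ F) = mirror E \ mirror F := rfl
      rw [h3]
      have h4 := h.diff (ae_eq_refl (mirror F))
      simpa using h4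
    rw [vol_congr h2] at h1
    have h5 : (volume (E \ F)).toReal = 0 := by
      rw [← h1]
      simp [vol]
    rcases (ENNReal.toReal_eq_zero_iff _).mp h5 with h6 | h6
    · exact h6
    · exact absurd h6 (volume_openCube_lt 3 (sdiff_subset.trans hE))
  rw [ae_eq_set]
  exact ⟨key hE mE mF h, key hF mF mE h.symm⟩

theorem mirror_compl {E : Set (Fin 3 → ℝ)} :
    mirror (openCube 3 \ E) =ᵐ[volume] ((mirror E)ᶜ : Set (Fin 3 → ℝ)) := by
  filter_upwards [ae_fold_mem] with x hx
  apply propext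
  change (foldMap x ∈ openCube 3 ∧ foldMap x ∉ E) ↔ foldMap x ∉ E
  exact ⟨fun h => h.2, fun h => ⟨hx, h⟩⟩

theorem mirror_openCube_congr {E F : Set (Fin 3 → ℝ)} (h : ∀ x ∈ openCube 3, x ∈ E ↔ x ∈ F) :
    mirror E =ᵐ[volume] mirror F := by
  filter_upwards [ae_fold_mem] with x hx
  apply propext
  exact h _ hx

theorem radius_tube' {r v : ℝ} (hr : 0 < r) (h : Real.pi * r ^ 2 = v)
    (hv : v ≤ 1 / Real.pi) : r ≤ 1 / 3 := by
  have hpi := Real.pi_gt_three
  have hpi0 := Real.pi_pos
  rw [le_div_iff₀ hpi0, ← h] at hv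
  have h1 : (Real.pi * r) ^ 2 ≤ 1 := by nlinarith
  have h2 : Real.pi * r ≤ 1 := by
    by_contra hcon
    push Not at hcon
    nlinarith
  nlinarith

/-- The uniform description of the torus models: centre set `A`, radius at most `1/3`. -/
theorem model_TS {v : ℝ} {B : Set (Fin 3 → ℝ)} (h : Model v B) (h0 : 0 < v) (h1 : v ≤ 1 / 2) :
    ∃ (A : Finset (Fin 3)) (c : Fin 3 → ℝ) (r : ℝ), 0 < r ∧ r ≤ 1 / 3 ∧ B = TS A c r ∧
      (∀ p, IsVertex p → CubeModel v (QS A p (2 * r))) := by
  rcases h with ⟨hv, c, r, hr, hV, rfl⟩ | ⟨hv, hv', i, c, r, hr, hV, rfl⟩ | ⟨hv, i, a, rfl⟩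
  · refine ⟨Finset.univ, c, r, hr, radius_ball hV hv, ballSet_eq_TS c r, fun p hp => ?_⟩
    refine Or.inl ⟨hv, p, 2 * r, hp, by linarith, ?_, rfl⟩
    rw [← hV]
    ring
  · refine ⟨Finset.univ.erase i, c, r, hr, radius_tube' hr hV hv', tubeSet_eq_TS i c r,
      fun p hp => ?_⟩
    refine Or.inr (Or.inl ⟨hv, hv', i, p, 2 * r, hp, by linarith, ?_, rfl⟩)
    rw [← hV]
    ring
  · refine ⟨{i}, fun _ => a + v / 2, v / 2, by linarith, by linarith,
      slabSet_eq_TS i a h0.le, fun p hp => ?_⟩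
    refine Or.inr (Or.inr ⟨hv, i, ?_⟩)
    have e : 2 * (v / 2) = v := by ring
    rcases hp i with hpi | hpi
    · left
      ext x
      simp only [QS, mem_ofPred_eq, Finset.sum_singleton, hpi, sub_zero, e]
      constructor
      · rintro ⟨hx, h2⟩
        exact ⟨hx, lt_of_pow_lt_pow_left₀ 2 h0.le h2⟩
      · rintro ⟨hx, h2⟩
        exact ⟨hx, pow_lt_pow_left₀ h2 (hx i).1.le (by norm_num)⟩
    · right
      ext x
      simp only [QS, mem_ofPred_eq, Finset.sum_singleton, hpi, e]
      constructor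
      · rintro ⟨hx, h2⟩
        refine ⟨hx, ?_⟩
        have h3 : (1 - x i) ^ 2 < v ^ 2 := by nlinarith
        have := lt_of_pow_lt_pow_left₀ 2 h0.le h3
        linarith
      · rintro ⟨hx, h2⟩
        refine ⟨hx, ?_⟩
        have h3 : (1 - x i) ^ 2 < v ^ 2 :=
          pow_lt_pow_left₀ (by linarith) (by linarith [(hx i).2]) (by norm_num)
        nlinarith

/-- The cube models correspond to torus models. -/
theorem cubeModel_mirror {v : ℝ} {B : Set (Fin 3 → ℝ)} (h : CubeModel v B) (h0 : 0 < v)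
    (h1 : v ≤ 1 / 2) : B ⊆ openCube 3 ∧ MeasurableSet B ∧
      ∃ B', Model v B' ∧ mirror B =ᵐ[volume] B' := by
  have hcase : ∀ {p : Fin 3 → ℝ}, IsVertex p → ∀ (A : Finset (Fin 3)) (r : ℝ),
      mirror (QS A p (2 * r)) =ᵐ[volume] TS A (fun j => p j / 2) r := by
    intro p hp A r
    apply mirror_QS
    intro j _
    rcases hp j with h | h
    · left; exact ⟨h, 0, by rw [h]; simp⟩
    · right; exact ⟨h, 0, by rw [h]; simp⟩
  rcases h with ⟨hv, p, r, hp, hr, hV, rfl⟩ | ⟨hv, hv', i, p, r, hp, hr, hV, rfl⟩ | ⟨hv, i, hB⟩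
  · refine ⟨fun x hx => hx.1, (isOpen_QS Finset.univ p r).measurableSet,
      ballSet (fun j => p j / 2) (r / 2), Or.inl ⟨hv, _, r / 2, by linarith, ?_, rfl⟩, ?_⟩
    · rw [← hV]; ring
    · have h2 := hcase hp Finset.univ (r / 2)
      rw [show 2 * (r / 2) = r by ring] at h2
      rw [ballSet_eq_TS]
      exact h2
  · refine ⟨fun x hx => hx.1, (isOpen_QS (Finset.univ.erase i) p r).measurableSet,
      tubeSet i (fun j => p j / 2) (r / 2), Or.inr (Or.inl ⟨hv, hv', i, _, r / 2,
        by linarith, ?_, rfl⟩), ?_⟩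
    · rw [← hV]; ring
    · have h2 := hcase hp (Finset.univ.erase i) (r / 2)
      rw [show 2 * (r / 2) = r by ring] at h2
      rw [tubeSet_eq_TS]
      exact h2
  · have key : ∀ b : ℝ, (b = 0 ∨ b = 1) → B = QS {i} (fun _ => b) v → B ⊆ openCube 3 ∧
        MeasurableSet B ∧ ∃ B', Model v B' ∧ mirror B =ᵐ[volume] B' := by
      intro b hb hBQ
      rw [hBQ]
      refine ⟨fun x hx => hx.1, (isOpen_QS {i} _ v).measurableSet,
        slabSet i (b / 2 - v / 2) v, Or.inr (Or.inr ⟨hv, i, _, rfl⟩), ?_⟩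
      have hp : IsVertex (fun _ : Fin 3 => b) := fun _ => hb
      have h2 := hcase hp {i} (v / 2)
      rw [show 2 * (v / 2) = v by ring] at h2
      rw [slabSet_eq_TS i _ h0.le]
      have e : b / 2 - v / 2 + v / 2 = b / 2 := by ring
      rw [e]
      exact h2
    rcases hB with hB | hB
    · apply key 0 (Or.inl rfl)
      rw [hB]
      ext x
      simp only [QS, mem_ofPred_eq, Finset.sum_singleton, sub_zero]
      constructor
      · rintro ⟨hx, h2⟩
        exact ⟨hx, pow_lt_pow_left₀ h2 (hx i).1.le (by norm_num)⟩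
      · rintro ⟨hx, h2⟩
        exact ⟨hx, lt_of_pow_lt_pow_left₀ 2 h0.le h2⟩
    · apply key 1 (Or.inr rfl)
      rw [hB]
      ext x
      simp only [QS, mem_ofPred_eq, Finset.sum_singleton]
      constructor
      · rintro ⟨hx, h2⟩
        refine ⟨hx, ?_⟩
        have h3 : (1 - x i) ^ 2 < v ^ 2 :=
          pow_lt_pow_left₀ (by linarith) (by linarith [(hx i).2]) (by norm_num)
        nlinarith
      · rintro ⟨hx, h2⟩
        refine ⟨hx, ?_⟩
        have h3 : (1 - x i) ^ 2 < v ^ 2 := by nlinarith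
        have := lt_of_pow_lt_pow_left₀ 2 h0.le h3
        linarith

theorem ofReal_half {x : ℝ} : ENNReal.ofReal x / 2 = ENNReal.ofReal (x / 2) := by
  rw [ENNReal.ofReal_div_of_pos (by norm_num)]
  norm_num

theorem cubeModel_spec {v : ℝ} {B : Set (Fin 3 → ℝ)} (h : CubeModel v B) (h0 : 0 < v)
    (h1 : v ≤ 1 / 2) : MeasurableSet B ∧ B ⊆ openCube 3 ∧ (volume B).toReal = v ∧
      relPerimeter B = ENNReal.ofReal (J v / 2) := by
  obtain ⟨hB, mB, B', hB', hm⟩ := cubeModel_mirror h h0 h1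
  obtain ⟨-, -, hc⟩ := classification_of_mid midStatement_holds
  obtain ⟨-, -, hv, hper⟩ := hc v B' h0 h1 hB'
  refine ⟨mB, hB, ?_, ?_⟩
  · rw [← vol_mirror hB mB, vol_congr hm, hv]
  · rw [relPerimeter_eq_half hB mB, perimeter_congr hm, hper, ofReal_half]

theorem exists_cubeModel {v : ℝ} (h0 : 0 < v) : ∃ B, CubeModel v B := by
  have hpi := Real.pi_pos
  rcases le_total v (4 * Real.pi / 81) with h | h
  · refine ⟨_, Or.inl ⟨h, fun _ => 0, (6 * v / Real.pi) ^ (1 / 3 : ℝ), fun _ => Or.inl rfl,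
      by positivity, ?_, rfl⟩⟩
    rw [← Real.rpow_natCast, ← Real.rpow_mul (by positivity)]
    norm_num
  · rcases le_total v (1 / Real.pi) with h' | h'
    · refine ⟨_, Or.inr (Or.inl ⟨h, h', 0, fun _ => 0, Real.sqrt (4 * v / Real.pi),
        fun _ => Or.inl rfl, by positivity, ?_, rfl⟩)⟩
      rw [Real.sq_sqrt (by positivity)]
      field_simp
    · exact ⟨_, Or.inr (Or.inr ⟨h', 0, Or.inl rfl⟩)⟩

theorem volume_compl' {E : Set (Fin 3 → ℝ)} (hE : E ⊆ openCube 3) (mE : MeasurableSet E) :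
    (volume (openCube 3 \ E)).toReal = 1 - (volume E).toReal := by
  rw [measure_sdiff hE mE.nullMeasurableSet (volume_openCube_lt 3 hE), volume_openCube,
    ENNReal.toReal_sub_of_le _ ENNReal.one_ne_top, ENNReal.toReal_one]
  rw [← volume_openCube 3]
  exact measure_mono hE

theorem relPerimeter_compl {E : Set (Fin 3 → ℝ)} (hE : E ⊆ openCube 3) (mE : MeasurableSet E) :
    relPerimeter (openCube 3 \ E) = relPerimeter E := by
  rw [relPerimeter_eq_half sdiff_subset ((isOpen_openCube 3).measurableSet.diff mE),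
    relPerimeter_eq_half hE mE, perimeter_congr mirror_compl,
    perimeter_compl (measurableSet_mirror mE)]

theorem relProfile_eq {V : ℝ} (h0 : 0 < V) (h1 : V < 1) :
    relProfile 3 V = ENNReal.ofReal (J V / 2) := by
  obtain ⟨hp, -, -⟩ := classification_of_mid midStatement_holds
  apply le_antisymm
  · -- models
    rcases le_total V (1 / 2) with h | h
    · obtain ⟨B, hB⟩ := exists_cubeModel h0
      obtain ⟨a1, a2, a3, a4⟩ := cubeModel_spec hB h0 h
      rw [← a4]
      exact iInf_le_of_le B (iInf_le_of_le a1 (iInf_le_of_le a2 (iInf_le_of_le a3 le_rfl)))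
    · have h0' : 0 < 1 - V := by linarith
      obtain ⟨B, hB⟩ := exists_cubeModel h0'
      obtain ⟨a1, a2, a3, a4⟩ := cubeModel_spec hB h0' (by linarith)
      rw [J_one_sub'] at a4
      rw [← a4, ← relPerimeter_compl a2 a1]
      refine iInf_le_of_le (openCube 3 \ B) (iInf_le_of_le
        ((isOpen_openCube 3).measurableSet.diff a1) (iInf_le_of_le sdiff_subset
          (iInf_le_of_le ?_ le_rfl)))
      rw [volume_compl' a2 a1, a3]
      ring
  · unfold relProfile
    refine le_iInf fun E => le_iInf fun mE => le_iInf fun hE => le_iInf fun hV => ?_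
    rw [relPerimeter_eq_half hE mE, ← ofReal_half, ← hp V h0 h1]
    apply ENNReal.div_le_div_right
    unfold profile
    exact iInf_le_of_le (mirror E) (iInf_le_of_le (measurableSet_mirror mE)
      (iInf_le_of_le (isPeriodic_mirror E) (iInf_le_of_le ((vol_mirror hE mE).trans hV) le_rfl)))

/-- minimizers of volume at most one half whose mirror set is a.e. a torus model -/
theorem cube_of_torus {E B' : Set (Fin 3 → ℝ)} (hE : E ⊆ openCube 3) (mE : MeasurableSet E)
    {v : ℝ} (h0 : 0 < v) (h1 : v ≤ 1 / 2) (hB' : Model v B') (h : mirror E =ᵐ[volume] B') :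
    ∃ B, CubeModel v B ∧ E =ᵐ[volume] B := by
  obtain ⟨A, c, r, hr, hr3, rfl, hQ⟩ := model_TS hB' h0 h1
  obtain ⟨p, hp, hpc⟩ := exists_vertex (centre_half hr hr3 h)
  refine ⟨QS A p (2 * r), hQ p hp, ?_⟩
  apply ae_eq_of_mirror hE (fun x hx => hx.1) mE (isOpen_QS A p _).measurableSet
  exact h.trans (mirror_QS hpc).symm

theorem relMinimizer_iff {E : Set (Fin 3 → ℝ)} (mE : MeasurableSet E) (hE : E ⊆ openCube 3)
    (h0 : 0 < (volume E).toReal) (h1 : (volume E).toReal < 1) :
    relPerimeter E = relProfile 3 (volume E).toReal ↔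
      ((volume E).toReal ≤ 1 / 2 ∧ ∃ B, CubeModel (volume E).toReal B ∧ E =ᵐ[volume] B) ∨
      (1 / 2 ≤ (volume E).toReal ∧ ∃ B, CubeModel (1 - (volume E).toReal) B ∧
        E =ᵐ[volume] (openCube 3 \ B : Set (Fin 3 → ℝ))) := by
  obtain ⟨hprof, hmin, -⟩ := classification_of_mid midStatement_holds
  set v := (volume E).toReal with hv
  have hvm : vol (mirror E) = v := vol_mirror hE mE
  constructor
  · intro h
    have h2 : perimeter (mirror E) = profile 3 (vol (mirror E)) := by
      rw [perimeter_mirror hE mE, h, relProfile_eq h0 h1, hvm, hprof v h0 h1]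
      have e : (2 : ENNReal) = ENNReal.ofReal 2 := by norm_num
      rw [e, ← ENNReal.ofReal_mul (by norm_num)]
      congr 1
      ring
    have h3 := (hmin (mirror E) (measurableSet_mirror mE) (isPeriodic_mirror E)
      (by rw [hvm]; exact h0) (by rw [hvm]; exact h1)).mp h2
    rw [hvm] at h3
    rcases h3 with ⟨h4, B', hB', h5⟩ | ⟨h4, B', hB', h5⟩
    · exact Or.inl ⟨h4, cube_of_torus hE mE h0 h4 hB' h5⟩
    · right
      refine ⟨h4, ?_⟩
      have h6 : mirror (openCube 3 \ E) =ᵐ[volume] B' := by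
        have h7 : ((mirror E)ᶜ : Set (Fin 3 → ℝ)) =ᵐ[volume] (B'ᶜᶜ : Set (Fin 3 → ℝ)) := h5.compl
        rw [compl_compl] at h7
        exact mirror_compl.trans h7
      obtain ⟨B, hB, hEB⟩ := cube_of_torus (E := openCube 3 \ E) sdiff_subset
        ((isOpen_openCube 3).measurableSet.diff mE) (by linarith : 0 < 1 - v) (by linarith) hB' h6
      refine ⟨B, hB, ?_⟩
      have h8 := (ae_eq_refl (μ := volume) (openCube 3)).diff hEB
      rwa [sdiff_sdiff_cancel_left hE] at h8
  · intro h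
    rw [relProfile_eq h0 h1]
    rcases h with ⟨h2, B, hB, hEB⟩ | ⟨h2, B, hB, hEB⟩
    · rw [relPerimeter_congr hEB]
      exact (cubeModel_spec hB h0 h2).2.2.2
    · rw [relPerimeter_congr hEB]
      obtain ⟨a1, a2, a3, a4⟩ := cubeModel_spec hB (by linarith : 0 < 1 - v) (by linarith)
      rw [relPerimeter_compl a2 a1, a4, J_one_sub']

end Vale.Agent.P232.H732
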