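import Vale.Agent.P232.H732.Upper

/-! Fields tangential to the faces of the cube are allowed in the relative perimeter. -/

open MeasureTheory Set Filter Topology

namespace Vale.Agent.P232.H732

open Vale.Agent.P232

/-- one-dimensional cut-off -/
noncomputable def th (k : ℕ) (t : ℝ) : ℝ :=
  Real.smoothTransition (k * t - 1) * Real.smoothTransition (k * (1 - t) - 1)

theorem th_nonneg (k : ℕ) (t : ℝ) : 0 ≤ th k t :=
  mul_nonneg (Real.smoothTransition.nonneg _) (Real.smoothTransition.nonneg _)

theorem th_le_one (k : ℕ) (t : ℝ) : th k t ≤ 1 :=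
  mul_le_one₀ (Real.smoothTransition.le_one _) (Real.smoothTransition.nonneg _)
    (Real.smoothTransition.le_one _)

theorem contDiff_th (k : ℕ) : ContDiff ℝ 1 (th k) := by
  unfold th
  apply ContDiff.mul
  · exact Real.smoothTransition.contDiff.comp (by fun_prop)
  · exact Real.smoothTransition.contDiff.comp (by fun_prop)

theorem th_eq_zero {k : ℕ} {t : ℝ} (h : k * t ≤ 1 ∨ k * (1 - t) ≤ 1) : th k t = 0 := by
  unfold th
  rcases h with h | h
  · rw [Real.smoothTransition.zero_of_nonpos (by linarith), zero_mul]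
  · rw [Real.smoothTransition.zero_of_nonpos (x := k * (1 - t) - 1) (by linarith), mul_zero]

theorem th_eq_one {k : ℕ} {t : ℝ} (h1 : 2 ≤ k * t) (h2 : 2 ≤ k * (1 - t)) : th k t = 1 := by
  unfold th
  rw [Real.smoothTransition.one_of_one_le (by linarith),
    Real.smoothTransition.one_of_one_le (by linarith), one_mul]

theorem deriv_st_eq_zero {s : ℝ} (h : 1 < s) : deriv Real.smoothTransition s = 0 := by
  have h1 : Real.smoothTransition =ᶠ[𝓝 s] fun _ => 1 := by
    filter_upwards [eventually_gt_nhds h] with u hu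
    exact Real.smoothTransition.one_of_one_le hu.le
  rw [h1.deriv_eq]
  simp

theorem exists_deriv_st_bound : ∃ C : ℝ, 0 ≤ C ∧ ∀ s, |deriv Real.smoothTransition s| ≤ C := by
  have hc : Continuous (deriv Real.smoothTransition) :=
    (Real.smoothTransition.contDiff (n := 1)).continuous_deriv le_rfl
  obtain ⟨C, hC⟩ := (isCompact_Icc (a := (-1 : ℝ)) (b := 2)).exists_bound_of_continuousOn
    hc.continuousOn
  refine ⟨max C 0, le_max_right _ _, fun s => ?_⟩
  rcases le_or_gt s 2 with h2 | h2
  · rcases le_or_gt (-1) s with h1 | h1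
    · exact (hC s ⟨h1, h2⟩).trans (le_max_left _ _)
    · have h3 : Real.smoothTransition =ᶠ[𝓝 s] fun _ => 0 := by
        filter_upwards [eventually_lt_nhds h1] with u hu
        exact Real.smoothTransition.zero_of_nonpos (by linarith)
      rw [h3.deriv_eq]
      simp
  · rw [deriv_st_eq_zero (by linarith)]
    simp

theorem hasDerivAt_th (k : ℕ) (t : ℝ) : HasDerivAt (th k)
    (deriv Real.smoothTransition (k * t - 1) * k * Real.smoothTransition (k * (1 - t) - 1) +
      Real.smoothTransition (k * t - 1) * (deriv Real.smoothTransition (k * (1 - t) - 1) * (-k)))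
    t := by
  have hd : Differentiable ℝ Real.smoothTransition :=
    (Real.smoothTransition.contDiff (n := 1)).differentiable one_ne_zero
  have h1 : HasDerivAt (fun t : ℝ => (k : ℝ) * t - 1) k t := by
    simpa using ((hasDerivAt_id t).const_mul (k : ℝ)).sub_const 1
  have h2 : HasDerivAt (fun t : ℝ => (k : ℝ) * (1 - t) - 1) (-k) t := by
    simpa using (((hasDerivAt_id t).const_sub 1).const_mul (k : ℝ)).sub_const 1
  have h3 := (hd (k * t - 1)).hasDerivAt.comp t h1
  have h4 := (hd (k * (1 - t) - 1)).hasDerivAt.comp t h2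
  exact h3.mul h4

theorem deriv_th_mul_le {C L : ℝ} (hC0 : 0 ≤ C) (hL : 0 ≤ L)
    (hC : ∀ s, |deriv Real.smoothTransition s| ≤ C) (k : ℕ) {t z : ℝ}
    (ht0 : 0 ≤ t) (ht1 : t ≤ 1) (hz0 : |z| ≤ L * t) (hz1 : |z| ≤ L * (1 - t)) :
    |deriv (th k) t * z| ≤ 4 * (C * L) := by
  rw [(hasDerivAt_th k t).deriv]
  have hk : (0 : ℝ) ≤ k := Nat.cast_nonneg k
  have key : ∀ u : ℝ, 0 ≤ u → |z| ≤ L * u →
      |deriv Real.smoothTransition (k * u - 1)| * k * |z| ≤ 2 * (C * L) := by
    intro u hu hz
    rcases lt_or_ge 1 (k * u - 1) with h | h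
    · rw [deriv_st_eq_zero h]
      simp only [abs_zero, zero_mul]
      positivity
    · calc |deriv Real.smoothTransition (k * u - 1)| * k * |z|
          ≤ C * k * (L * u) := by
            apply mul_le_mul _ hz (abs_nonneg _) (by positivity)
            exact mul_le_mul_of_nonneg_right (hC _) hk
        _ = (C * L) * (k * u) := by ring
        _ ≤ (C * L) * 2 := by
            apply mul_le_mul_of_nonneg_left _ (by positivity)
            linarith
        _ = 2 * (C * L) := by ring
  have s1 : |Real.smoothTransition (k * (1 - t) - 1)| ≤ 1 := by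
    rw [abs_of_nonneg (Real.smoothTransition.nonneg _)]
    exact Real.smoothTransition.le_one _
  have s2 : |Real.smoothTransition (k * t - 1)| ≤ 1 := by
    rw [abs_of_nonneg (Real.smoothTransition.nonneg _)]
    exact Real.smoothTransition.le_one _
  have k1 := key t ht0 hz0
  have k2 := key (1 - t) (by linarith) hz1
  set A := deriv Real.smoothTransition (k * t - 1)
  set B := deriv Real.smoothTransition (k * (1 - t) - 1)
  set P := Real.smoothTransition (k * (1 - t) - 1)
  set Q := Real.smoothTransition (k * t - 1)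
  have e : (A * k * P + Q * (B * (-k))) * z = P * (A * k * z) - Q * (B * k * z) := by ring
  rw [e]
  have a1 : |P * (A * k * z)| ≤ 2 * (C * L) := by
    rw [abs_mul, abs_mul, abs_mul, abs_of_nonneg hk]
    calc |P| * (|A| * k * |z|) ≤ 1 * (|A| * k * |z|) :=
          mul_le_mul_of_nonneg_right s1 (by positivity)
      _ ≤ 2 * (C * L) := by rw [one_mul]; exact k1
  have a2 : |Q * (B * k * z)| ≤ 2 * (C * L) := by
    rw [abs_mul, abs_mul, abs_mul, abs_of_nonneg hk]
    calc |Q| * (|B| * k * |z|) ≤ 1 * (|B| * k * |z|) :=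
          mul_le_mul_of_nonneg_right s2 (by positivity)
      _ ≤ 2 * (C * L) := by rw [one_mul]; exact k2
  calc |P * (A * k * z) - Q * (B * k * z)| ≤ |P * (A * k * z)| + |Q * (B * k * z)| :=
        abs_sub _ _
    _ ≤ 4 * (C * L) := by linarith

/-- the cut-off of the cube -/
noncomputable def eta {n : ℕ} (k : ℕ) (y : Fin n → ℝ) : ℝ := ∏ i, th k (y i)

theorem eta_nonneg {n : ℕ} (k : ℕ) (y : Fin n → ℝ) : 0 ≤ eta k y :=
  Finset.prod_nonneg fun _ _ => th_nonneg _ _

theorem eta_le_one {n : ℕ} (k : ℕ) (y : Fin n → ℝ) : eta k y ≤ 1 :=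
  Finset.prod_le_one (fun _ _ => th_nonneg _ _) fun _ _ => th_le_one _ _

theorem contDiff_eta {n : ℕ} (k : ℕ) : ContDiff ℝ 1 (eta (n := n) k) := by
  unfold eta
  apply contDiff_prod
  intro i _
  exact (contDiff_th k).comp (contDiff_apply ℝ ℝ i)

theorem hasFDerivAt_eta {n : ℕ} (k : ℕ) (y : Fin n → ℝ) :
    HasFDerivAt (eta (n := n) k) (∑ i, (∏ j ∈ Finset.univ.erase i, th k (y j)) •
      (deriv (th k) (y i) • (ContinuousLinearMap.proj (R := ℝ)
        (φ := fun _ : Fin n => ℝ) i))) y := by
  unfold eta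
  apply HasFDerivAt.finsetProd
  intro i _
  have h1 : HasFDerivAt (fun y : Fin n → ℝ => y i)
      (ContinuousLinearMap.proj (R := ℝ) (φ := fun _ : Fin n => ℝ) i) y :=
    (ContinuousLinearMap.proj (R := ℝ) (φ := fun _ : Fin n => ℝ) i).hasFDerivAt
  have h2 : HasDerivAt (th k) (deriv (th k) (y i)) (y i) :=
    ((contDiff_th k).differentiable one_ne_zero (y i)).hasDerivAt
  exact h2.comp_hasFDerivAt y h1

theorem fderiv_eta_single {n : ℕ} (k : ℕ) (y : Fin n → ℝ) (i : Fin n) :
    fderiv ℝ (eta (n := n) k) y (Pi.single i 1)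
      = (∏ j ∈ Finset.univ.erase i, th k (y j)) * deriv (th k) (y i) := by
  rw [(hasFDerivAt_eta k y).fderiv]
  simp only [_root_.sum_apply, _root_.smul_apply,
    ContinuousLinearMap.proj_apply, smul_eq_mul]
  rw [Finset.sum_eq_single i]
  · simp
  · intro j _ hj
    simp [hj]
  · intro h; exact absurd (Finset.mem_univ i) h

theorem eta_zero_of_notMem {n : ℕ} {k : ℕ} (hk : 0 < k) {y : Fin n → ℝ}
    (hy : y ∉ Icc (fun _ : Fin n => (1 / k : ℝ)) (fun _ => 1 - 1 / k)) : eta k y = 0 := by
  have hk' : (0 : ℝ) < k := by exact_mod_cast hk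
  have : ∃ i, y i < 1 / k ∨ 1 - 1 / k < y i := by
    by_contra hcon
    push Not at hcon
    exact hy ⟨fun i => (hcon i).1, fun i => (hcon i).2⟩
  obtain ⟨i, hi⟩ := this
  apply Finset.prod_eq_zero (Finset.mem_univ i)
  apply th_eq_zero
  rcases hi with h | h
  · left
    rw [lt_div_iff₀ hk'] at h
    linarith
  · right
    have h2 : 1 - y i < 1 / k := by linarith
    rw [lt_div_iff₀ hk'] at h2
    linarith

theorem eta_eventually_one {n : ℕ} {y : Fin n → ℝ} (hy : y ∈ openCube n) :
    ∀ᶠ k : ℕ in atTop, eta k =ᶠ[𝓝 y] fun _ => 1 := by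
  have h : ∀ᶠ k : ℕ in atTop, ∀ i, 2 < k * y i ∧ 2 < k * (1 - y i) := by
    rw [eventually_all]
    intro i
    have h1 : Tendsto (fun k : ℕ => (k : ℝ) * y i) atTop atTop :=
      tendsto_natCast_atTop_atTop.atTop_mul_const (hy i).1
    have h2 : Tendsto (fun k : ℕ => (k : ℝ) * (1 - y i)) atTop atTop :=
      tendsto_natCast_atTop_atTop.atTop_mul_const (by linarith [(hy i).2])
    exact (h1.eventually_gt_atTop 2).and (h2.eventually_gt_atTop 2)
  filter_upwards [h] with k hk
  have h3 : ∀ᶠ z in 𝓝 y, ∀ i, 2 < (k : ℝ) * z i ∧ 2 < (k : ℝ) * (1 - z i) := by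
    rw [eventually_all]
    intro i
    have c1 : Continuous fun z : Fin n → ℝ => (k : ℝ) * z i := by fun_prop
    have c2 : Continuous fun z : Fin n → ℝ => (k : ℝ) * (1 - z i) := by fun_prop
    exact (continuousAt_const.eventually_lt c1.continuousAt (hk i).1).and
      (continuousAt_const.eventually_lt c2.continuousAt (hk i).2)
  filter_upwards [h3] with z hz
  exact Finset.prod_eq_one fun i _ => th_eq_one (hz i).1.le (hz i).2.le

theorem innerField_eta {n : ℕ} {k : ℕ} (hk : 0 < k) {Z : (Fin n → ℝ) → (Fin n → ℝ)}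
    (hZ : ContDiff ℝ 1 Z) (hb : ∀ x, ∑ i, Z x i ^ 2 ≤ 1) :
    InnerField (fun y => eta k y • Z y) := by
  have hk' : (0 : ℝ) < k := by exact_mod_cast hk
  have hz : ∀ y, y ∉ Icc (fun _ : Fin n => (1 / k : ℝ)) (fun _ => 1 - 1 / k) →
      eta k y • Z y = 0 := by
    intro y hy
    rw [eta_zero_of_notMem hk hy, zero_smul]
  refine ⟨(contDiff_eta k).smul hZ, HasCompactSupport.intro isCompact_Icc hz, ?_, ?_⟩
  · have h1 : tsupport (fun y => eta k y • Z y)
        ⊆ Icc (fun _ : Fin n => (1 / k : ℝ)) (fun _ => 1 - 1 / k) := by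
      apply closure_minimal _ isClosed_Icc
      intro y hy
      by_contra hcon
      exact hy (hz y hcon)
    refine h1.trans ?_
    intro y hy i
    have a1 : (0 : ℝ) < 1 / k := by positivity
    have a2 := hy.1 i
    have a3 := hy.2 i
    simp only at a2 a3
    constructor <;> linarith
  · intro x
    have : ∀ i, ((eta k x • Z x) i) ^ 2 = eta k x ^ 2 * Z x i ^ 2 := by
      intro i
      simp [mul_pow]
    simp_rw [this]
    rw [← Finset.mul_sum]
    have h1 : eta k x ^ 2 ≤ 1 := pow_le_one₀ (eta_nonneg k x) (eta_le_one k x)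
    calc eta k x ^ 2 * ∑ i, Z x i ^ 2 ≤ 1 * ∑ i, Z x i ^ 2 :=
          mul_le_mul_of_nonneg_right h1 (Finset.sum_nonneg fun _ _ => sq_nonneg _)
      _ ≤ 1 := by rw [one_mul]; exact hb x

theorem face_bound {n : ℕ} {Z : (Fin n → ℝ) → (Fin n → ℝ)} (hZ : ContDiff ℝ 1 Z)
    (h0 : ∀ y i, y i = 0 → Z y i = 0) (h1 : ∀ y i, y i = 1 → Z y i = 0) :
    ∃ L : ℝ, 0 ≤ L ∧ ∀ y ∈ openCube n, ∀ i, |Z y i| ≤ L * y i ∧ |Z y i| ≤ L * (1 - y i) := by
  obtain ⟨L, hL⟩ := (isCompact_Icc (a := (0 : Fin n → ℝ)) (b := 1)).exists_bound_of_continuousOn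
    (hZ.continuous_fderiv one_ne_zero).continuousOn
  refine ⟨max L 0, le_max_right _ _, ?_⟩
  have key : ∀ y ∈ openCube n, ∀ i, ∀ c : ℝ, (c = 0 ∨ c = 1) →
      |Z y i| ≤ max L 0 * |y i - c| := by
    intro y hy i c hc
    have hy' : y ∈ Icc (0 : Fin n → ℝ) 1 := ⟨fun j => (hy j).1.le, fun j => (hy j).2.le⟩
    have hw' : Function.update y i c ∈ Icc (0 : Fin n → ℝ) 1 := by
      constructor
      · intro j
        by_cases hj : j = i
        · subst hj; simp; rcases hc with h | h <;> rw [h] <;> norm_num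
        · simp [hj]; exact (hy j).1.le
      · intro j
        by_cases hj : j = i
        · subst hj; simp; rcases hc with h | h <;> rw [h] <;> norm_num
        · simp [hj]; exact (hy j).2.le
    have h2 := (convex_Icc (0 : Fin n → ℝ) 1).norm_image_sub_le_of_norm_fderiv_le (𝕜 := ℝ)
      (fun x _ => hZ.differentiable one_ne_zero x) (fun x hx => (hL x hx).trans (le_max_left L 0))
      hw' hy'
    have h3 : Z (Function.update y i c) i = 0 := by
      rcases hc with h | h
      · exact h0 _ _ (by simp [h])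
      · exact h1 _ _ (by simp [h])
    have h4 : ‖y - Function.update y i c‖ = |y i - c| := by
      have : y - Function.update y i c = Pi.single i (y i - c) := by
        ext j
        by_cases hj : j = i
        · subst hj; simp
        · simp [hj]
      rw [this, Pi.norm_single, Real.norm_eq_abs]
    rw [h4] at h2
    have h5 := (norm_le_pi_norm (Z y - Z (Function.update y i c)) i).trans h2
    rw [Pi.sub_apply, h3, sub_zero, Real.norm_eq_abs] at h5
    exact h5
  intro y hy i
  have a0 := key y hy i 0 (Or.inl rfl)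
  have a1 := key y hy i 1 (Or.inr rfl)
  rw [sub_zero, abs_of_pos (hy i).1] at a0
  have hyi : |y i - 1| = 1 - y i := by
    rw [abs_of_neg (by linarith [(hy i).2]), neg_sub]
  rw [hyi] at a1
  exact ⟨a0, a1⟩

theorem ofReal_integral_le_relPerimeter {n : ℕ} {E : Set (Fin n → ℝ)} (hE : E ⊆ openCube n)
    (hm : MeasurableSet E) {Z : (Fin n → ℝ) → (Fin n → ℝ)} (hZ : ContDiff ℝ 1 Z)
    (hb : ∀ x, ∑ i, Z x i ^ 2 ≤ 1)
    (h0 : ∀ y i, y i = 0 → Z y i = 0) (h1 : ∀ y i, y i = 1 → Z y i = 0) :
    ENNReal.ofReal (∫ x in E, divergence Z x) ≤ relPerimeter E := by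
  obtain ⟨L, hL0, hL⟩ := face_bound hZ h0 h1
  obtain ⟨C, hC0, hC⟩ := exists_deriv_st_bound
  obtain ⟨D, hD⟩ := (isCompact_Icc (a := (0 : Fin n → ℝ)) (b := 1)).exists_bound_of_continuousOn
    (continuous_divergence hZ).continuousOn
  have hdiv : ∀ (k : ℕ) (y : Fin n → ℝ), divergence (fun y => eta k y • Z y) y =
      eta k y * divergence Z y + ∑ i, fderiv ℝ (eta (n := n) k) y (Pi.single i 1) * Z y i := by
    intro k y
    exact divergence_smul ((contDiff_eta k).differentiable one_ne_zero y)
      (hZ.differentiable one_ne_zero y)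
  have hvol : volume E ≠ ⊤ := by
    have h2 : E ⊆ cube n := fun y hy i => ⟨(hE hy i).1.le, (hE hy i).2⟩
    have h3 := measure_mono (μ := volume) h2
    rw [volume_cube] at h3
    exact (h3.trans_lt ENNReal.one_lt_top).ne
  have hlim : Tendsto (fun k : ℕ => ∫ x in E, divergence (fun y => eta k y • Z y) x) atTop
      (𝓝 (∫ x in E, divergence Z x)) := by
    apply tendsto_integral_of_dominated_convergence (fun _ => D + n * (4 * (C * L)))
    · intro k
      exact (continuous_divergence ((contDiff_eta k).smul hZ)).aestronglyMeasurable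
    · exact integrableOn_const hvol
    · intro k
      filter_upwards [ae_restrict_mem hm] with y hy
      have hy' := hE hy
      rw [hdiv, Real.norm_eq_abs]
      have b1 : |eta k y * divergence Z y| ≤ D := by
        rw [abs_mul, abs_of_nonneg (eta_nonneg k y)]
        have h2 := hD y ⟨fun j => (hy' j).1.le, fun j => (hy' j).2.le⟩
        rw [Real.norm_eq_abs] at h2
        calc eta k y * |divergence Z y| ≤ 1 * |divergence Z y| :=
              mul_le_mul_of_nonneg_right (eta_le_one k y) (abs_nonneg _)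
          _ ≤ D := by rw [one_mul]; exact h2
      have b2 : |∑ i, fderiv ℝ (eta (n := n) k) y (Pi.single i 1) * Z y i|
          ≤ n * (4 * (C * L)) := by
        calc |∑ i, fderiv ℝ (eta (n := n) k) y (Pi.single i 1) * Z y i|
            ≤ ∑ i, |fderiv ℝ (eta (n := n) k) y (Pi.single i 1) * Z y i| :=
              Finset.abs_sum_le_sum_abs _ _
          _ ≤ ∑ _i : Fin n, 4 * (C * L) := by
              apply Finset.sum_le_sum
              intro i _
              rw [fderiv_eta_single]
              have hp0 : 0 ≤ ∏ j ∈ Finset.univ.erase i, th k (y j) :=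
                Finset.prod_nonneg fun _ _ => th_nonneg _ _
              have hp1 : ∏ j ∈ Finset.univ.erase i, th k (y j) ≤ 1 :=
                Finset.prod_le_one (fun _ _ => th_nonneg _ _) fun _ _ => th_le_one _ _
              rw [mul_assoc, abs_mul, abs_of_nonneg hp0]
              have h3 := deriv_th_mul_le hC0 hL0 hC k (hy' i).1.le (hy' i).2.le
                (hL y hy' i).1 (hL y hy' i).2
              calc _ ≤ 1 * |deriv (th k) (y i) * Z y i| :=
                    mul_le_mul_of_nonneg_right hp1 (abs_nonneg _)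
                _ ≤ _ := by rw [one_mul]; exact h3
          _ = n * (4 * (C * L)) := by simp
      calc _ ≤ |eta k y * divergence Z y| +
            |∑ i, fderiv ℝ (eta (n := n) k) y (Pi.single i 1) * Z y i| := abs_add_le _ _
        _ ≤ _ := add_le_add b1 b2
    · filter_upwards [ae_restrict_mem hm] with y hy
      apply tendsto_const_nhds.congr'
      filter_upwards [eta_eventually_one (hE hy)] with k hk
      have h2 : (fun y => eta k y • Z y) =ᶠ[𝓝 y] Z := by
        filter_upwards [hk] with z hz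
        rw [hz, one_smul]
      unfold divergence
      rw [h2.fderiv_eq]
  have hlim2 := (ENNReal.continuous_ofReal.tendsto _).comp hlim
  apply le_of_tendsto hlim2
  filter_upwards [eventually_gt_atTop 0] with k hk
  have hI := innerField_eta hk hZ hb
  refine le_trans (le_of_eq ?_) (le_iSup₂ (f := fun (X : (Fin n → ℝ) → (Fin n → ℝ))
    (_ : InnerField X) => ENNReal.ofReal (∫ x in E ∩ openCube n, divergence X x))
    (fun y => eta k y • Z y) hI)
  simp only [Function.comp]
  rw [inter_eq_left.mpr hE]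

end Vale.Agent.P232.H732
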