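import Vale.Agent.P232.Defs
import Vale.Agent.P232.ShapesDef

open MeasureTheory Set

namespace Vale.Agent.P232

/-- The open unit cube `(0,1)ⁿ`. -/
def openCube (n : ℕ) : Set (Fin n → ℝ) := {x | ∀ i, 0 < x i ∧ x i < 1}

/-- The `C¹` vector fields of Euclidean length at most one whose support is a compact subset of
the open unit cube. -/
structure InnerField {n : ℕ} (X : (Fin n → ℝ) → (Fin n → ℝ)) : Prop where
  contDiff : ContDiff ℝ 1 X
  compact : HasCompactSupport X
  support : tsupport X ⊆ openCube n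
  bound : ∀ x, ∑ i, X x i ^ 2 ≤ 1

/-- De Giorgi's perimeter of `E` relative to the open unit cube: for a region with smooth
boundary, the area of the part of the boundary inside the open cube (the faces of the cube are
free boundary and are not counted). -/
noncomputable def relPerimeter {n : ℕ} (E : Set (Fin n → ℝ)) : ENNReal :=
  ⨆ (X : (Fin n → ℝ) → (Fin n → ℝ)) (_ : InnerField X),
    ENNReal.ofReal (∫ x in E ∩ openCube n, divergence X x)

/-- The relative (free boundary) isoperimetric profile of the open unit cube. -/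
noncomputable def relProfile (n : ℕ) (V : ℝ) : ENNReal :=
  ⨅ (E : Set (Fin n → ℝ)) (_ : MeasurableSet E) (_ : E ⊆ openCube n)
    (_ : (volume E).toReal = V), relPerimeter E

/-- `p` is a vertex of the unit cube. -/
def IsVertex {n : ℕ} (p : Fin n → ℝ) : Prop := ∀ i, p i = 0 ∨ p i = 1

/-- The model regions of volume `v ≤ 1/2` of the open unit cube: octants of balls about a vertex
for `v ≤ 4π/81`, quarters of tubes about an edge for `4π/81 ≤ v ≤ 1/π`, slabs along a face for
`1/π ≤ v`. -/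
def CubeModel (v : ℝ) (B : Set (Fin 3 → ℝ)) : Prop :=
  (v ≤ 4 * Real.pi / 81 ∧ ∃ p r, IsVertex p ∧ 0 < r ∧ Real.pi / 6 * r ^ 3 = v ∧
    B = {x | x ∈ openCube 3 ∧ ∑ j, (x j - p j) ^ 2 < r ^ 2}) ∨
  (4 * Real.pi / 81 ≤ v ∧ v ≤ 1 / Real.pi ∧ ∃ i p r, IsVertex p ∧ 0 < r ∧
    Real.pi / 4 * r ^ 2 = v ∧
    B = {x | x ∈ openCube 3 ∧ ∑ j ∈ Finset.univ.erase i, (x j - p j) ^ 2 < r ^ 2}) ∨
  (1 / Real.pi ≤ v ∧ ∃ i, B = {x | x ∈ openCube 3 ∧ x i < v} ∨
    B = {x | x ∈ openCube 3 ∧ 1 - v < x i})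

end Vale.Agent.P232
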