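import Vale.Agent.P232.Bdl.B2
import Vale.Agent.P232.H732.Defs

/-! The reflection of a subset of the unit cube to a subset of the torus. -/

open MeasureTheory Set Filter Topology

namespace Vale.Agent.P232.H732

open Vale.Agent.P232

/-- the folding map of the torus onto the closed cube -/
noncomputable def foldMap {n : ℕ} (x : Fin n → ℝ) : Fin n → ℝ := fun i => 2 * nr (x i)

/-- the mirror-symmetric periodic set whose pieces are `2^n` reflected half-size copies of `E` -/
def mirror {n : ℕ} (E : Set (Fin n → ℝ)) : Set (Fin n → ℝ) := {x | foldMap x ∈ E}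

theorem measurable_foldMap {n : ℕ} : Measurable (foldMap (n := n)) :=
  measurable_pi_lambda _ fun i => (measurable_nr.comp (measurable_pi_apply i)).const_mul 2

theorem measurableSet_mirror {n : ℕ} {E : Set (Fin n → ℝ)} (hE : MeasurableSet E) :
    MeasurableSet (mirror E) := measurable_foldMap hE

theorem foldMap_add {n : ℕ} (x : Fin n → ℝ) (k : Fin n → ℤ) :
    foldMap (fun i => x i + (k i : ℝ)) = foldMap x := by
  ext i
  simp only [foldMap, nr_add_int]

theorem isPeriodic_mirror {n : ℕ} (E : Set (Fin n → ℝ)) : IsPeriodic (mirror E) := by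
  intro x k
  simp only [mirror, mem_ofPred_eq, foldMap_add]

/-- the sign of a Boolean -/
def sg (b : Bool) : ℝ := if b then -1 else 1

theorem sg_sq (b : Bool) : sg b * sg b = 1 := by cases b <;> simp [sg]

theorem abs_sg (b : Bool) : |sg b| = 1 := by cases b <;> simp [sg]

/-- offset of a Boolean -/
def of01 (b : Bool) : ℝ := if b then 1 else 0

/-- the inverse branches of the folding map -/
noncomputable def psi {n : ℕ} (σ : Fin n → Bool) (y : Fin n → ℝ) : Fin n → ℝ :=
  fun i => of01 (σ i) + sg (σ i) / 2 * y i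

/-- the branches of the folding map -/
noncomputable def phi' {n : ℕ} (σ : Fin n → Bool) (x : Fin n → ℝ) : Fin n → ℝ :=
  fun i => 2 * sg (σ i) * (x i - of01 (σ i))

theorem phi_psi {n : ℕ} (σ : Fin n → Bool) (y : Fin n → ℝ) : phi' σ (psi σ y) = y := by
  ext i
  have h := sg_sq (σ i)
  unfold phi' psi
  have : 2 * sg (σ i) * (of01 (σ i) + sg (σ i) / 2 * y i - of01 (σ i))
    = (sg (σ i) * sg (σ i)) * y i := by ring
  rw [this, h, one_mul]

theorem psi_phi {n : ℕ} (σ : Fin n → Bool) (x : Fin n → ℝ) : psi σ (phi' σ x) = x := by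
  ext i
  have h := sg_sq (σ i)
  unfold phi' psi
  have : of01 (σ i) + sg (σ i) / 2 * (2 * sg (σ i) * (x i - of01 (σ i)))
    = of01 (σ i) + (sg (σ i) * sg (σ i)) * (x i - of01 (σ i)) := by ring
  rw [this, h, one_mul]
  ring

theorem psi_injective {n : ℕ} (σ : Fin n → Bool) : Function.Injective (psi σ) :=
  Function.LeftInverse.injective (phi_psi σ)

theorem image_psi {n : ℕ} (σ : Fin n → Bool) (E : Set (Fin n → ℝ)) :
    psi σ '' E = phi' σ ⁻¹' E :=
  congrFun (Set.image_eq_preimage_of_inverse (phi_psi σ) (psi_phi σ)) E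

theorem continuous_phi' {n : ℕ} (σ : Fin n → Bool) : Continuous (phi' σ) := by
  unfold phi'
  fun_prop

theorem continuous_psi {n : ℕ} (σ : Fin n → Bool) : Continuous (psi σ) := by
  unfold psi
  fun_prop

theorem measurableSet_image_psi {n : ℕ} (σ : Fin n → Bool) {E : Set (Fin n → ℝ)}
    (hE : MeasurableSet E) : MeasurableSet (psi σ '' E) := by
  rw [image_psi]
  exact (continuous_phi' σ).measurable hE

theorem nr_psi {b : Bool} {t : ℝ} (h0 : 0 < t) (h1 : t < 1) :
    2 * nr (of01 b + sg b / 2 * t) = t := by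
  cases b with
  | false =>
    simp only [of01, sg, Bool.false_eq_true, if_false]
    rw [nr_of_mem (by linarith) (by linarith)]
    ring
  | true =>
    simp only [of01, sg, if_true]
    rw [nr_eq_one_sub (by rw [abs_of_pos (by linarith)]; linarith)
      (by rw [abs_of_pos (by linarith)]; linarith), abs_of_pos (by linarith)]
    ring

theorem foldMap_psi {n : ℕ} (σ : Fin n → Bool) {y : Fin n → ℝ} (hy : y ∈ openCube n) :
    foldMap (psi σ y) = y := by
  ext i
  exact nr_psi (hy i).1 (hy i).2

theorem psi_mem_cube {n : ℕ} (σ : Fin n → Bool) {y : Fin n → ℝ} (hy : y ∈ openCube n) :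
    psi σ y ∈ cube n := by
  intro i
  have h := hy i
  unfold psi
  cases hσ : σ i
  · simp only [of01, sg, Bool.false_eq_true, if_false]
    constructor <;> linarith [h.1, h.2]
  · simp only [of01, sg, if_true]
    constructor <;> linarith [h.1, h.2]

theorem mirror_inter_cube {n : ℕ} {E : Set (Fin n → ℝ)} (hE : E ⊆ openCube n) :
    mirror E ∩ cube n = ⋃ σ : Fin n → Bool, psi σ '' E := by
  classical
  ext x
  simp only [mem_inter_iff, mem_iUnion, mem_image]
  constructor
  · rintro ⟨hx, hc⟩
    have hx' : foldMap x ∈ E := hx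
    have ho := hE hx'
    refine ⟨fun i => decide (1 / 2 < x i), foldMap x, hx', ?_⟩
    ext i
    have h1 := hc i
    have h2 := ho i
    unfold foldMap at h2
    unfold psi foldMap
    by_cases hh : 1 / 2 < x i
    · simp only [hh, decide_true, of01, sg, if_true]
      rw [nr_eq_one_sub (by rw [abs_of_pos (by linarith)]; exact hh)
        (by rw [abs_of_pos (by linarith)]; exact h1.2.le), abs_of_pos (by linarith)]
      ring
    · have hle : x i ≤ 1 / 2 := not_lt.mp hh
      have hlt : x i < 1 / 2 := by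
        rcases hle.lt_or_eq with h | h
        · exact h
        · exfalso
          rw [h, nr_half] at h2
          linarith [h2.2]
      simp only [hh, decide_false, of01, sg, Bool.false_eq_true, if_false]
      rw [nr_of_mem h1.1 hlt]
      ring
  · rintro ⟨σ, y, hy, rfl⟩
    refine ⟨?_, psi_mem_cube σ (hE hy)⟩
    change foldMap (psi σ y) ∈ E
    rw [foldMap_psi σ (hE hy)]
    exact hy

theorem psi_disjoint {n : ℕ} {E : Set (Fin n → ℝ)} (hE : E ⊆ openCube n) :
    Pairwise (Function.onFun Disjoint fun σ : Fin n → Bool => psi σ '' E) := by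
  intro σ τ hst
  rw [Function.onFun, Set.disjoint_left]
  rintro x ⟨y, hy, rfl⟩ ⟨z, hz, hzy⟩
  apply hst
  ext i
  have h1 := hE hy i
  have h2 := hE hz i
  have h3 : psi τ z i = psi σ y i := congrFun hzy i
  unfold psi at h3
  cases hσ : σ i <;> cases hτ : τ i <;> simp only [hσ, hτ, of01, sg, Bool.false_eq_true, if_false,
    if_true] at h3 <;> first | rfl | (exfalso; linarith [h1.1, h1.2, h2.1, h2.2])

/-- the linear part of `psi` -/
noncomputable def dpsi {n : ℕ} (σ : Fin n → Bool) : (Fin n → ℝ) →L[ℝ] (Fin n → ℝ) :=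
  ContinuousLinearMap.pi fun i => (sg (σ i) / 2) • ContinuousLinearMap.proj i

theorem hasFDerivAt_psi {n : ℕ} (σ : Fin n → Bool) (y : Fin n → ℝ) :
    HasFDerivAt (psi σ) (dpsi σ) y := by
  unfold dpsi
  rw [hasFDerivAt_pi]
  intro i
  have h : HasFDerivAt (fun y : Fin n → ℝ => y i)
      (ContinuousLinearMap.proj (R := ℝ) (φ := fun _ : Fin n => ℝ) i) y :=
    (ContinuousLinearMap.proj (R := ℝ) (φ := fun _ : Fin n => ℝ) i).hasFDerivAt
  exact (h.const_mul (sg (σ i) / 2)).const_add (of01 (σ i))

theorem abs_det_dpsi {n : ℕ} (σ : Fin n → Bool) : |(dpsi σ).det| = (1 / 2) ^ n := by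
  have h : ((dpsi σ : (Fin n → ℝ) →L[ℝ] (Fin n → ℝ)) : (Fin n → ℝ) →ₗ[ℝ] (Fin n → ℝ))
      = Matrix.toLin' (Matrix.diagonal fun i => sg (σ i) / 2) := by
    apply LinearMap.ext
    intro y
    ext i
    simp [dpsi, Matrix.mulVec_diagonal]
  rw [ContinuousLinearMap.det, h, LinearMap.det_toLin', Matrix.det_diagonal, Finset.abs_prod]
  rw [Finset.prod_congr rfl (fun i _ => show |sg (σ i) / 2| = 1 / 2 by
    rw [abs_div, abs_sg]; norm_num)]
  simp

theorem integral_mirror {n : ℕ} {E : Set (Fin n → ℝ)} (hE : E ⊆ openCube n)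
    (hm : MeasurableSet E) {g : (Fin n → ℝ) → ℝ} (hg : IntegrableOn g (cube n)) :
    ∫ x in mirror E ∩ cube n, g x =
      ∑ σ : Fin n → Bool, (1 / 2) ^ n * ∫ y in E, g (psi σ y) := by
  have hsub : ∀ σ : Fin n → Bool, psi σ '' E ⊆ cube n := by
    rintro σ _ ⟨y, hy, rfl⟩
    exact psi_mem_cube σ (hE hy)
  rw [mirror_inter_cube hE, integral_iUnion_fintype (fun σ => measurableSet_image_psi σ hm)
    (psi_disjoint hE) (fun σ => hg.mono_set (hsub σ))]
  apply Finset.sum_congr rfl
  intro σ _
  rw [integral_image_eq_integral_abs_det_fderiv_smul volume hm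
    (fun y _ => (hasFDerivAt_psi σ y).hasFDerivWithinAt) (psi_injective σ).injOn]
  simp_rw [abs_det_dpsi]
  rw [← integral_const_mul]
  rfl

theorem integral_mirror_fold {n : ℕ} {E : Set (Fin n → ℝ)} (hE : E ⊆ openCube n)
    (hm : MeasurableSet E) {g : (Fin n → ℝ) → ℝ} {h : (Fin n → ℝ) → ℝ}
    (hg : IntegrableOn g (cube n)) (hgh : ∀ x, foldMap x ∈ E → g x = h (foldMap x)) :
    ∫ x in mirror E ∩ cube n, g x = ∫ y in E, h y := by
  rw [integral_mirror hE hm hg]
  have : ∀ σ : Fin n → Bool, ∫ y in E, g (psi σ y) = ∫ y in E, h y := by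
    intro σ
    apply setIntegral_congr_fun hm
    intro y hy
    have h1 := foldMap_psi σ (hE hy)
    simp only
    rw [hgh _ (by rw [h1]; exact hy), h1]
  simp_rw [this]
  rw [Finset.sum_const, Finset.card_univ, Fintype.card_pi]
  simp only [Fintype.card_bool, Finset.prod_const, Finset.card_univ, Fintype.card_fin,
    nsmul_eq_mul, Nat.cast_pow, Nat.cast_ofNat]
  rw [← mul_assoc, ← mul_pow]
  norm_num

theorem vol_mirror {n : ℕ} {E : Set (Fin n → ℝ)} (hE : E ⊆ openCube n)
    (hm : MeasurableSet E) : vol (mirror E) = (volume E).toReal := by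
  have h1 := integral_mirror_fold hE hm (g := fun _ => (1 : ℝ)) (h := fun _ => (1 : ℝ))
    (by
      have : volume (cube n) ≠ ⊤ := by rw [volume_cube]; simp
      exact integrableOn_const this) (fun _ _ => rfl)
  simp only [integral_const, smul_eq_mul, mul_one, MeasurableSet.univ,
    measureReal_restrict_apply, univ_inter] at h1
  exact h1

end Vale.Agent.P232.H732
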