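import Vale.Agent.P232.H732.Cutoff
import Mathlib.Algebra.Order.Chebyshev

/-! The perimeter of the mirror set is twice the relative perimeter; the relative profile. -/

open MeasureTheory Set Filter Topology

namespace Vale.Agent.P232.H732

open Vale.Agent.P232

/-- the average of the reflected fields -/
noncomputable def avgField {n : ℕ} (X : (Fin n → ℝ) → (Fin n → ℝ)) (y : Fin n → ℝ) :
    Fin n → ℝ := fun i => ∑ σ : Fin n → Bool, ((1 / 2) ^ n * sg (σ i)) * X (psi σ y) i

theorem avgField_eq {n : ℕ} (X : (Fin n → ℝ) → (Fin n → ℝ)) :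
    avgField X = fun y => ∑ σ : Fin n → Bool, fun i => ((1 / 2) ^ n * sg (σ i)) *
      X (fun j => of01 (σ j) + sg (σ j) / 2 * y j) i := by
  funext y
  ext i
  simp only [avgField, Finset.sum_apply]
  rfl

theorem contDiff_avgField {n : ℕ} {X : (Fin n → ℝ) → (Fin n → ℝ)} (hX : ContDiff ℝ 1 X) :
    ContDiff ℝ 1 (avgField X) := by
  rw [avgField_eq]
  apply ContDiff.sum
  intro σ _
  exact contDiff_diag hX _ _ _

theorem divergence_avgField {n : ℕ} {X : (Fin n → ℝ) → (Fin n → ℝ)} (hX : ContDiff ℝ 1 X)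
    (y : Fin n → ℝ) :
    divergence (avgField X) y =
      ∑ σ : Fin n → Bool, ((1 / 2) ^ n * (1 / 2)) * divergence X (psi σ y) := by
  have h1 : ∀ σ : Fin n → Bool, divergence (fun y i => ((1 / 2) ^ n * sg (σ i)) *
      X (fun j => of01 (σ j) + sg (σ j) / 2 * y j) i) y
      = ((1 / 2) ^ n * (1 / 2)) * divergence X (psi σ y) := by
    intro σ
    refine divergence_diag (hX.differentiable one_ne_zero) _ _ _ _ ?_ y
    intro i
    have := sg_sq (σ i)
    calc (1 / 2 : ℝ) ^ n * sg (σ i) * (sg (σ i) / 2)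
        = (1 / 2) ^ n * (1 / 2) * (sg (σ i) * sg (σ i)) := by ring
      _ = _ := by rw [this, mul_one]
  simp_rw [← h1]
  rw [avgField_eq]
  unfold divergence
  rw [fderiv_fun_sum (fun σ _ => (contDiff_diag hX _ _ _).differentiable one_ne_zero y)]
  simp only [_root_.sum_apply, Finset.sum_apply]
  rw [Finset.sum_comm]

theorem avgField_bound {n : ℕ} {X : (Fin n → ℝ) → (Fin n → ℝ)}
    (hX : ∀ x, ∑ i, X x i ^ 2 ≤ 1) (y : Fin n → ℝ) : ∑ i, avgField X y i ^ 2 ≤ 1 := by
  have hc : ((Finset.univ : Finset (Fin n → Bool)).card : ℝ) = 2 ^ n := by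
    rw [Finset.card_univ, Fintype.card_pi]
    simp
  have h1 : ∀ i, avgField X y i ^ 2 ≤ (1 / 2) ^ n * ∑ σ : Fin n → Bool, X (psi σ y) i ^ 2 := by
    intro i
    have h2 := sq_sum_le_card_mul_sum_sq (s := (Finset.univ : Finset (Fin n → Bool)))
      (f := fun σ => ((1 / 2) ^ n * sg (σ i)) * X (psi σ y) i)
    refine h2.trans (le_of_eq ?_)
    rw [hc, Finset.mul_sum, Finset.mul_sum]
    apply Finset.sum_congr rfl
    intro σ _
    have h3 := sg_sq (σ i)
    have h4 : (2 : ℝ) ^ n * (1 / 2) ^ n = 1 := by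
      rw [← mul_pow]; norm_num
    calc (2 : ℝ) ^ n * ((1 / 2) ^ n * sg (σ i) * X (psi σ y) i) ^ 2
        = ((2 : ℝ) ^ n * (1 / 2) ^ n) * (1 / 2) ^ n * (sg (σ i) * sg (σ i))
          * X (psi σ y) i ^ 2 := by ring
      _ = _ := by rw [h3, h4]; ring
  calc ∑ i, avgField X y i ^ 2
      ≤ ∑ i, (1 / 2) ^ n * ∑ σ : Fin n → Bool, X (psi σ y) i ^ 2 :=
        Finset.sum_le_sum fun i _ => h1 i
    _ = (1 / 2) ^ n * ∑ σ : Fin n → Bool, ∑ i, X (psi σ y) i ^ 2 := by
        rw [← Finset.mul_sum, Finset.sum_comm]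
    _ ≤ (1 / 2) ^ n * ∑ _σ : Fin n → Bool, (1 : ℝ) := by
        apply mul_le_mul_of_nonneg_left _ (by positivity)
        exact Finset.sum_le_sum fun σ _ => hX _
    _ = 1 := by
        rw [Finset.sum_const, nsmul_eq_mul, hc, mul_one, ← mul_pow]
        norm_num

/-- flipping one Boolean -/
def flip {n : ℕ} (i : Fin n) : (Fin n → Bool) ≃ (Fin n → Bool) :=
  Function.Involutive.toPerm (fun σ => Function.update σ i (!σ i)) (by
    intro σ
    ext j
    by_cases hj : j = i
    · subst hj; simp
    · simp [hj])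

theorem flip_apply {n : ℕ} (i : Fin n) (σ : Fin n → Bool) :
    flip i σ = Function.update σ i (!σ i) := rfl

theorem avgField_face {n : ℕ} {X : (Fin n → ℝ) → (Fin n → ℝ)}
    (hX : ∀ (x : Fin n → ℝ) (k : Fin n → ℤ), X (fun i => x i + (k i : ℝ)) = X x)
    (y : Fin n → ℝ) (i : Fin n) (hy : y i = 0 ∨ y i = 1) : avgField X y i = 0 := by
  have key : ∀ σ : Fin n → Bool, X (psi (flip i σ) y) = X (psi σ y) := by
    intro σ
    rcases hy with hy | hy
    · -- the points differ by an integer vector
      have : psi (flip i σ) y = fun j => psi σ y j +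
          (((Pi.single i (if σ i then (-1 : ℤ) else 1) : Fin n → ℤ) j : ℤ) : ℝ) := by
        ext j
        rw [flip_apply]
        by_cases hj : j = i
        · subst hj
          unfold psi
          rw [hy]
          cases hσ : σ j <;> simp [of01, sg, hσ]
        · unfold psi
          simp [hj]
      rw [this, hX]
    · have : psi (flip i σ) y = psi σ y := by
        ext j
        rw [flip_apply]
        by_cases hj : j = i
        · subst hj
          unfold psi
          rw [hy]
          cases hσ : σ j <;> simp [of01, sg, hσ] <;> norm_num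
        · unfold psi
          simp [hj]
      rw [this]
  have hneg : ∀ σ : Fin n → Bool, ((1 / 2) ^ n * sg (flip i σ i)) * X (psi (flip i σ) y) i
      = -(((1 / 2) ^ n * sg (σ i)) * X (psi σ y) i) := by
    intro σ
    rw [key, flip_apply]
    cases hσ : σ i <;> simp [sg, hσ]
  have h1 := (Equiv.sum_comp (flip i)
    (fun σ : Fin n → Bool => ((1 / 2) ^ n * sg (σ i)) * X (psi σ y) i))
  simp_rw [hneg] at h1
  rw [Finset.sum_neg_distrib] at h1
  unfold avgField
  linarith

theorem perimeter_mirror_le {n : ℕ} {E : Set (Fin n → ℝ)} (hE : E ⊆ openCube n)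
    (hm : MeasurableSet E) : perimeter (mirror E) ≤ 2 * relPerimeter E := by
  unfold perimeter
  apply iSup₂_le
  intro X hX
  have hvol : volume E ≠ ⊤ := by
    have h2 : E ⊆ cube n := fun y hy i => ⟨(hE hy i).1.le, (hE hy i).2⟩
    have h3 := measure_mono (μ := volume) h2
    rw [volume_cube] at h3
    exact (h3.trans_lt ENNReal.one_lt_top).ne
  have hcont := continuous_divergence hX.contDiff
  have hint : ∀ σ : Fin n → Bool, IntegrableOn (fun y => divergence X (psi σ y)) E := by
    intro σ
    have h2 : E ⊆ Icc (0 : Fin n → ℝ) 1 :=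
      fun y hy => ⟨fun j => (hE hy j).1.le, fun j => (hE hy j).2.le⟩
    exact ((hcont.comp (continuous_psi σ)).continuousOn.integrableOn_compact
      isCompact_Icc).mono_set h2
  have h1 : ∫ x in mirror E ∩ cube n, divergence X x = 2 * ∫ y in E, divergence (avgField X) y := by
    rw [integral_mirror hE hm (integrableOn_cube hcont)]
    simp_rw [divergence_avgField hX.contDiff]
    rw [integral_finsetSum _ (fun σ _ => (hint σ).const_mul _), Finset.mul_sum]
    apply Finset.sum_congr rfl
    intro σ _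
    rw [integral_const_mul]
    ring
  rw [h1, ENNReal.ofReal_mul (by norm_num)]
  have h2 := ofReal_integral_le_relPerimeter hE hm (contDiff_avgField hX.contDiff)
    (avgField_bound hX.bound) (fun y i h => avgField_face hX.periodic y i (Or.inl h))
    (fun y i h => avgField_face hX.periodic y i (Or.inr h))
  calc ENNReal.ofReal 2 * ENNReal.ofReal (∫ y in E, divergence (avgField X) y)
      ≤ ENNReal.ofReal 2 * relPerimeter E := by gcongr
    _ = 2 * relPerimeter E := by norm_num

/-- The perimeter of the mirror set is twice the relative perimeter. -/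
theorem perimeter_mirror {n : ℕ} {E : Set (Fin n → ℝ)} (hE : E ⊆ openCube n)
    (hm : MeasurableSet E) : perimeter (mirror E) = 2 * relPerimeter E :=
  le_antisymm (perimeter_mirror_le hE hm) (two_mul_relPerimeter_le hE hm)

theorem relPerimeter_eq_half {n : ℕ} {E : Set (Fin n → ℝ)} (hE : E ⊆ openCube n)
    (hm : MeasurableSet E) : relPerimeter E = perimeter (mirror E) / 2 := by
  rw [perimeter_mirror hE hm, mul_comm, ENNReal.mul_div_cancel_right (by norm_num) (by norm_num)]

end Vale.Agent.P232.H732
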