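import Vale.Agent.P232.H732.Lower

/-! Balls, tubes and slabs of the torus with centres at half-integer points, and their cube
counterparts. -/

open MeasureTheory Set Filter Topology

namespace Vale.Agent.P232.H732

open Vale.Agent.P232

theorem nr_neg (t : ℝ) : nr (-t) = nr t := by
  apply le_antisymm
  · have h := nr_le_abs (-t) (-round t)
    refine h.trans (le_of_eq ?_)
    unfold nr
    rw [← abs_neg (t - _)]
    congr 1
    push_cast
    ring
  · have h := nr_le_abs t (-round (-t))
    refine h.trans (le_of_eq ?_)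
    unfold nr
    rw [← abs_neg (-t - _)]
    congr 1
    push_cast
    ring

theorem nr_sub_int (t : ℝ) (k : ℤ) : nr (t - k) = nr t := by
  have := nr_add_int (t - k) k
  rw [sub_add_cancel] at this
  exact this.symm

theorem nr_sub_half (t : ℝ) : nr (t - 1 / 2) = 1 / 2 - nr t := by
  have h0 : ∀ s : ℝ, 0 ≤ s → s ≤ 1 / 2 → nr (s - 1 / 2) = 1 / 2 - s := by
    intro s hs0 hs1
    rcases hs0.lt_or_eq with h | h
    · rw [nr_of_abs_lt (by rw [abs_lt]; constructor <;> linarith),
        abs_of_nonpos (by linarith)]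
      ring
    · rw [← h, zero_sub, nr_neg, nr_half, sub_zero]
  set m := round t with hm
  have h1 : |t - m| = nr t := rfl
  rcases le_total (m : ℝ) t with h | h
  · have h2 : nr t = t - m := by rw [← h1, abs_of_nonneg (by linarith)]
    have h3 := h0 (nr t) (nr_nonneg t) (nr_le_half t)
    rw [← h3, h2, show t - m - 1 / 2 = (t - 1 / 2) - m by ring, nr_sub_int]
  · have h2 : nr t = -(t - m) := by rw [← h1, abs_of_nonpos (by linarith)]
    have h3 := h0 (nr t) (nr_nonneg t) (nr_le_half t)
    rw [← h3, h2, ← nr_neg (-(t - m) - 1 / 2),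
      show -(-(t - m) - 1 / 2) = (t - 1 / 2) - ((m - 1 : ℤ) : ℝ) by push_cast; ring, nr_sub_int]

/-- The torus set: distance less than `r` from `c` in the coordinates in `A`. -/
def TS (A : Finset (Fin 3)) (c : Fin 3 → ℝ) (r : ℝ) : Set (Fin 3 → ℝ) :=
  {x | ∑ j ∈ A, nr (x j - c j) ^ 2 < r ^ 2}

/-- The cube set. -/
def QS (A : Finset (Fin 3)) (p : Fin 3 → ℝ) (r : ℝ) : Set (Fin 3 → ℝ) :=
  {x | x ∈ openCube 3 ∧ ∑ j ∈ A, (x j - p j) ^ 2 < r ^ 2}

theorem isOpen_openCube (n : ℕ) : IsOpen (openCube n) := by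
  have : openCube n = Set.pi univ (fun _ => Ioo (0 : ℝ) 1) := by
    ext x
    simp [openCube, Set.mem_pi, Set.mem_Ioo]
  rw [this]
  exact isOpen_set_pi finite_univ fun _ _ => isOpen_Ioo

theorem isOpen_TS (A : Finset (Fin 3)) (c : Fin 3 → ℝ) (r : ℝ) : IsOpen (TS A c r) := by
  have h := continuous_nr
  exact isOpen_lt (by fun_prop) continuous_const

theorem isOpen_QS (A : Finset (Fin 3)) (p : Fin 3 → ℝ) (r : ℝ) : IsOpen (QS A p r) := by
  have h : IsOpen {x : Fin 3 → ℝ | ∑ j ∈ A, (x j - p j) ^ 2 < r ^ 2} :=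
    isOpen_lt (by fun_prop) continuous_const
  exact (isOpen_openCube 3).inter h

theorem ballSet_eq_TS (c : Fin 3 → ℝ) (r : ℝ) : ballSet c r = TS Finset.univ c r := ballSet_eq c r

theorem tubeSet_eq_TS (i : Fin 3) (c : Fin 3 → ℝ) (r : ℝ) :
    tubeSet i c r = TS (Finset.univ.erase i) c r := by
  ext x
  simp only [tubeSet, TS, mem_ofPred_eq]
  constructor
  · rintro ⟨k, hk⟩
    exact (Finset.sum_le_sum fun j _ => nr_sq_le (x j - c j) (k j)).trans_lt hk
  · intro h
    refine ⟨fun j => round (x j - c j), ?_⟩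
    simp_rw [nr_sq_round]
    exact h

theorem slabSet_eq_TS (i : Fin 3) (a : ℝ) {w : ℝ} (hw : 0 ≤ w) :
    slabSet i a w = TS {i} (fun _ => a + w / 2) (w / 2) := by
  rw [slabSet_eq]
  ext x
  simp only [TS, mem_ofPred_eq, Finset.sum_singleton]
  rw [pow_lt_pow_iff_left₀ (nr_nonneg _) (by linarith) (by norm_num)]
  constructor <;> intro h <;> linarith

theorem ae_fold_mem : ∀ᵐ x : Fin 3 → ℝ, foldMap x ∈ openCube 3 := by
  have h1 : ∀ (i : Fin 3) (k : ℤ), ∀ᵐ x : Fin 3 → ℝ, x i ≠ k / 2 := by
    intro i k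
    have h2 : (volume : Measure (Fin 3 → ℝ)) {x | x i = k / 2} = 0 := by
      rw [volume_pi]
      exact Measure.pi_hyperplane _ i _
    rw [ae_iff]
    simpa using h2
  have h3 : ∀ᵐ x : Fin 3 → ℝ, ∀ (i : Fin 3) (k : ℤ), x i ≠ k / 2 := by
    rw [ae_all_iff]
    intro i
    rw [ae_all_iff]
    exact h1 i
  filter_upwards [h3] with x hx i
  have h4 := nr_nonneg (x i)
  have h5 := nr_le_half (x i)
  unfold foldMap
  constructor
  · rcases h4.lt_or_eq with h | h
    · linarith
    · exfalso
      apply hx i (2 * round (x i))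
      have h6 : |x i - round (x i)| = 0 := h.symm
      rw [abs_eq_zero] at h6
      push_cast
      linarith
  · rcases h5.lt_or_eq with h | h
    · linarith
    · exfalso
      have h6 : |x i - round (x i)| = 1 / 2 := h
      rcases (abs_eq (by norm_num)).mp h6 with h7 | h7
      · apply hx i (2 * round (x i) + 1)
        push_cast
        linarith
      · apply hx i (2 * round (x i) - 1)
        push_cast
        linarith

theorem mirror_QS {A : Finset (Fin 3)} {p c : Fin 3 → ℝ} {r : ℝ}
    (hpc : ∀ j ∈ A, (p j = 0 ∧ ∃ k : ℤ, c j = k) ∨ (p j = 1 ∧ ∃ k : ℤ, c j = 1 / 2 + k)) :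
    mirror (QS A p (2 * r)) =ᵐ[volume] TS A c r := by
  have key : ∀ x : Fin 3 → ℝ, ∑ j ∈ A, (foldMap x j - p j) ^ 2
      = 4 * ∑ j ∈ A, nr (x j - c j) ^ 2 := by
    intro x
    rw [Finset.mul_sum]
    apply Finset.sum_congr rfl
    intro j hj
    unfold foldMap
    rcases hpc j hj with ⟨h1, k, h2⟩ | ⟨h1, k, h2⟩
    · rw [h1, h2, nr_sub_int]
      ring
    · rw [h1, h2, show x j - (1 / 2 + (k : ℝ)) = (x j - 1 / 2) - k by ring, nr_sub_int,
        nr_sub_half]
      ring
  filter_upwards [ae_fold_mem] with x hx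
  apply propext
  change (foldMap x ∈ openCube 3 ∧ ∑ j ∈ A, (foldMap x j - p j) ^ 2 < (2 * r) ^ 2) ↔
    ∑ j ∈ A, nr (x j - c j) ^ 2 < r ^ 2
  rw [key]
  constructor
  · rintro ⟨-, h⟩
    nlinarith
  · intro h
    exact ⟨hx, by nlinarith⟩

/-- reflection in one coordinate -/
def rfl' (i : Fin 3) (x : Fin 3 → ℝ) : Fin 3 → ℝ := fun j => if j = i then -x j else x j

theorem measurePreserving_rfl' (i : Fin 3) : MeasurePreserving (rfl' i) volume volume := by
  have h : ∀ j : Fin 3, MeasurePreserving (fun t : ℝ => if j = i then -t else t) volume volume := by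
    intro j
    by_cases hj : j = i
    · simp only [hj, if_true]
      exact Measure.measurePreserving_neg volume
    · simp only [hj, if_false]
      exact MeasurePreserving.id volume
  exact volume_preserving_pi h

theorem mirror_rfl' (E : Set (Fin 3 → ℝ)) (i : Fin 3) : rfl' i ⁻¹' mirror E = mirror E := by
  ext x
  simp only [mirror, mem_preimage, mem_ofPred_eq]
  have : foldMap (rfl' i x) = foldMap x := by
    ext j
    unfold foldMap rfl'
    by_cases hj : j = i
    · simp [hj, nr_neg]
    · simp [hj]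
  rw [this]

/-- The centre of a mirror-symmetric ball, tube or slab is at half-integers. -/
theorem centre_half {A : Finset (Fin 3)} {c : Fin 3 → ℝ} {r : ℝ} (hr : 0 < r) (hr3 : r ≤ 1 / 3)
    {E : Set (Fin 3 → ℝ)} (hE : mirror E =ᵐ[volume] TS A c r) :
    ∀ i ∈ A, ∃ m : ℤ, 2 * c i = m := by
  intro i hi
  by_contra hcon
  push Not at hcon
  -- the reflected set
  have h1 : rfl' i ⁻¹' TS A c r =ᵐ[volume] TS A c r := by
    have h2 : rfl' i ⁻¹' mirror E =ᵐ[volume] rfl' i ⁻¹' TS A c r :=
      (measurePreserving_rfl' i).quasiMeasurePreserving.preimage_ae_eq hE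
    rw [mirror_rfl'] at h2
    exact h2.symm.trans hE
  -- the displacement
  set u : ℝ := 2 * c i with hu
  set δ : ℝ := u - round u with hδ
  have hδ0 : δ ≠ 0 := by
    intro h
    exact hcon (round u) (by rw [hδ] at h; linarith)
  have hδ1 : |δ| ≤ 1 / 2 := abs_sub_round u
  obtain ⟨s, hs1, hs2⟩ : ∃ s : ℝ, |s| < r ∧ r < nr (u + s) := by
    have hnr : ∀ s : ℝ, nr (u + s) = nr (δ + s) := by
      intro s
      rw [show u + s = (δ + s) + round u by rw [hδ]; ring, nr_add_int]
    -- positive case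
    have hpos : ∀ e : ℝ, 0 < e → e ≤ 1 / 2 → ∃ s : ℝ, 0 ≤ s ∧ s < r ∧ r < nr (e + s) := by
      intro e he0 he1
      rcases lt_or_ge r e with h | h
      · refine ⟨0, le_rfl, hr, ?_⟩
        rw [add_zero]
        rcases he1.lt_or_eq with h2 | h2
        · rw [nr_of_mem he0.le h2]; exact h
        · rw [h2, nr_half]; linarith
      · refine ⟨r - e / 2, by linarith, by linarith, ?_⟩
        have e1 : e + (r - e / 2) = r + e / 2 := by ring
        rw [e1]
        rcases (show r + e / 2 ≤ 1 / 2 by linarith).lt_or_eq with h2 | h2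
        · rw [nr_of_mem (by linarith) h2]; linarith
        · rw [h2, nr_half]; linarith
    rcases lt_or_gt_of_ne hδ0 with h | h
    · obtain ⟨s, hs0, hs1, hs2⟩ := hpos (-δ) (by linarith) (by
        rw [abs_of_neg h] at hδ1; exact hδ1)
      refine ⟨-s, by rw [abs_neg, abs_of_nonneg hs0]; exact hs1, ?_⟩
      rw [hnr, ← nr_neg, show -(δ + -s) = -δ + s by ring]
      exact hs2
    · obtain ⟨s, hs0, hs1, hs2⟩ := hpos δ h (by
        rw [abs_of_pos h] at hδ1; exact hδ1)
      refine ⟨s, by rw [abs_of_nonneg hs0]; exact hs1, ?_⟩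
      rw [hnr]
      exact hs2
  -- the open set of witnesses
  set U : Set (Fin 3 → ℝ) := {x | ∑ j ∈ A, nr (x j - c j) ^ 2 < r ^ 2} ∩
    {x | r < nr (x i + c i)} with hU
  have hUo : IsOpen U := by
    have h := continuous_nr
    exact (isOpen_TS A c r).inter (isOpen_lt continuous_const (by fun_prop))
  have hUne : U.Nonempty := by
    refine ⟨Function.update c i (c i + s), ?_, ?_⟩
    · change ∑ j ∈ A, nr (Function.update c i (c i + s) j - c j) ^ 2 < r ^ 2
      rw [Finset.sum_eq_single i]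
      · simp only [Function.update_self, add_sub_cancel_left]
        have h3 : nr s ≤ |s| := by simpa using nr_le_abs s 0
        exact pow_lt_pow_left₀ (h3.trans_lt hs1) (nr_nonneg _) (by norm_num)
      · intro j _ hj
        have h0 : nr 0 = 0 := by simpa using nr_of_mem le_rfl (by norm_num : (0 : ℝ) < 1 / 2)
        simp only [Function.update_of_ne hj, sub_self, h0]
        norm_num
      · intro h; exact absurd hi h
    · change r < nr (Function.update c i (c i + s) i + c i)
      rw [Function.update_self, show c i + s + c i = u + s by rw [hu]; ring]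
      exact hs2
  have hpos := hUo.measure_pos volume hUne
  have hzero : volume U = 0 := by
    have h4 : ∀ᵐ x : Fin 3 → ℝ, x ∉ U := by
      filter_upwards [h1] with x hx hxU
      have h5 : (x ∈ rfl' i ⁻¹' TS A c r) = (x ∈ TS A c r) := hx
      have h6 : x ∈ rfl' i ⁻¹' TS A c r := by rw [h5]; exact hxU.1
      have h7 : ∑ j ∈ A, nr (rfl' i x j - c j) ^ 2 < r ^ 2 := h6
      have h8 : nr (rfl' i x i - c i) ^ 2 ≤ ∑ j ∈ A, nr (rfl' i x j - c j) ^ 2 :=
        Finset.single_le_sum (f := fun j => nr (rfl' i x j - c j) ^ 2)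
          (fun _ _ => sq_nonneg _) hi
      have h9 : nr (rfl' i x i - c i) = nr (x i + c i) := by
        unfold rfl'
        rw [if_pos rfl, ← nr_neg]
        congr 1
        ring
      rw [h9] at h8
      have h10 : r < nr (x i + c i) := hxU.2
      have h11 : r ^ 2 < nr (x i + c i) ^ 2 := pow_lt_pow_left₀ h10 hr.le (by norm_num)
      linarith
    rw [ae_iff] at h4
    simpa using h4
  rw [hzero] at hpos
  exact lt_irrefl _ hpos

/-- the vertex belonging to a half-integer centre -/
theorem exists_vertex {A : Finset (Fin 3)} {c : Fin 3 → ℝ} (h : ∀ i ∈ A, ∃ m : ℤ, 2 * c i = m) :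
    ∃ p : Fin 3 → ℝ, IsVertex p ∧
      ∀ j ∈ A, (p j = 0 ∧ ∃ k : ℤ, c j = k) ∨ (p j = 1 ∧ ∃ k : ℤ, c j = 1 / 2 + k) := by
  classical
  refine ⟨fun j => if ∃ k : ℤ, c j = k then 0 else 1, fun j => ?_, fun j hj => ?_⟩
  · by_cases hk : ∃ k : ℤ, c j = k
    · simp [hk]
    · simp [hk]
  · by_cases hk : ∃ k : ℤ, c j = k
    · left
      simp only [hk, if_true, and_self]
    · right
      simp only [hk, if_false, true_and]
      obtain ⟨m, hm⟩ := h j hj
      rcases Int.even_or_odd' m with ⟨k, h1 | h1⟩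
      · exfalso
        apply hk
        refine ⟨k, ?_⟩
        rw [h1] at hm
        push_cast at hm
        linarith
      · refine ⟨k, ?_⟩
        rw [h1] at hm
        push_cast at hm
        linarith

end Vale.Agent.P232.H732
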