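import Vale.Agent.P232.H732.Fold

/-! Twice the relative perimeter is at most the perimeter of the mirror set. -/

open MeasureTheory Set Filter Topology

namespace Vale.Agent.P232.H732

open Vale.Agent.P232

theorem hasFDerivAt_diag {n : ℕ} {X : (Fin n → ℝ) → (Fin n → ℝ)} (hX : Differentiable ℝ X)
    (a d c : Fin n → ℝ) (x : Fin n → ℝ) :
    HasFDerivAt (fun y i => c i * X (fun j => a j + d j * y j) i)
      (ContinuousLinearMap.pi fun i => c i • ((ContinuousLinearMap.proj (R := ℝ)
        (φ := fun _ : Fin n => ℝ) i).comp ((fderiv ℝ X (fun j => a j + d j * x j)).comp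
          (ContinuousLinearMap.pi fun j => d j • ContinuousLinearMap.proj (R := ℝ)
            (φ := fun _ : Fin n => ℝ) j)))) x := by
  have hT : HasFDerivAt (fun y : Fin n → ℝ => fun j => a j + d j * y j)
      (ContinuousLinearMap.pi fun j => d j • ContinuousLinearMap.proj (R := ℝ)
            (φ := fun _ : Fin n => ℝ) j) x := by
    rw [hasFDerivAt_pi]
    intro i
    have h : HasFDerivAt (fun y : Fin n → ℝ => y i)
        (ContinuousLinearMap.proj (R := ℝ) (φ := fun _ : Fin n => ℝ) i) x :=
      (ContinuousLinearMap.proj (R := ℝ) (φ := fun _ : Fin n => ℝ) i).hasFDerivAt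
    exact (h.const_mul (d i)).const_add (a i)
  have hXT := (hX (fun j => a j + d j * x j)).hasFDerivAt.comp x hT
  rw [hasFDerivAt_pi]
  intro i
  have h2 := (ContinuousLinearMap.proj (R := ℝ) (φ := fun _ : Fin n => ℝ) i).hasFDerivAt.comp x hXT
  exact h2.const_mul (c i)

theorem divergence_diag {n : ℕ} {X : (Fin n → ℝ) → (Fin n → ℝ)} (hX : Differentiable ℝ X)
    (a d c : Fin n → ℝ) (κ : ℝ) (h : ∀ i, c i * d i = κ) (x : Fin n → ℝ) :
    divergence (fun y i => c i * X (fun j => a j + d j * y j) i) x
      = κ * divergence X (fun j => a j + d j * x j) := by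
  unfold divergence
  rw [(hasFDerivAt_diag hX a d c x).fderiv, Finset.mul_sum]
  apply Finset.sum_congr rfl
  intro i _
  have h1 : (ContinuousLinearMap.pi fun j => d j • ContinuousLinearMap.proj (R := ℝ)
            (φ := fun _ : Fin n => ℝ) j) (Pi.single i (1 : ℝ)) = d i • Pi.single i (1 : ℝ) := by
    ext j
    by_cases hj : j = i
    · subst hj; simp
    · simp [hj]
  simp only [ContinuousLinearMap.coe_pi', _root_.smul_apply,
    ContinuousLinearMap.comp_apply, ContinuousLinearMap.proj_apply, smul_eq_mul]
  have h2 : (fun i_1 => d i_1 * (Pi.single i (1 : ℝ) : Fin n → ℝ) i_1) = d i • Pi.single i (1 : ℝ) := by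
    ext j
    by_cases hj : j = i
    · subst hj; simp
    · simp [hj]
  rw [h2, map_smul]
  simp only [Pi.smul_apply, smul_eq_mul]
  rw [← mul_assoc, h i]

theorem contDiff_diag {n : ℕ} {X : (Fin n → ℝ) → (Fin n → ℝ)} (hX : ContDiff ℝ 1 X)
    (a d c : Fin n → ℝ) :
    ContDiff ℝ 1 (fun (y : Fin n → ℝ) (i : Fin n) => c i * X (fun j => a j + d j * y j) i) := by
  have hT : ContDiff ℝ 1 (fun y : Fin n → ℝ => fun j => a j + d j * y j) := by fun_prop
  have h1 := hX.comp hT
  rw [contDiff_pi]
  intro i
  have h2 : ContDiff ℝ 1 (fun y : Fin n → ℝ => X (fun j => a j + d j * y j) i) := by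
    rw [contDiff_pi] at h1
    exact h1 i
  exact contDiff_const.mul h2

/-- the sign of `t - round t` -/
noncomputable def sr (t : ℝ) : ℝ := if (round t : ℝ) ≤ t then 1 else -1

theorem sr_sq (t : ℝ) : sr t * sr t = 1 := by
  unfold sr; split_ifs <;> norm_num

theorem sr_add_int (t : ℝ) (k : ℤ) : sr (t + k) = sr t := by
  unfold sr
  rw [round_add_intCast]
  push_cast
  simp only [add_le_add_iff_right]

theorem continuous_nr : Continuous nr := by
  have h : nr = fun t : ℝ => ‖(t : UnitAddCircle)‖ := by
    ext t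
    rw [UnitAddCircle.norm_eq]
    rfl
  rw [h]
  exact continuous_norm.comp (AddCircle.continuous_mk' 1)

theorem continuous_foldMap {n : ℕ} : Continuous (foldMap (n := n)) := by
  unfold foldMap
  have := continuous_nr
  fun_prop

theorem eventually_nr {t : ℝ} (h0 : 0 < nr t) (h1 : nr t < 1 / 2) :
    ∀ᶠ u in 𝓝 t, sr u = sr t ∧ nr u = sr t * (u - round t) := by
  set m : ℝ := (round t : ℝ) with hm
  have hnr : nr t = |t - m| := rfl
  have hlt : ∀ᶠ u in 𝓝 t, |u - m| < 1 / 2 := by
    have hc : Continuous fun u : ℝ => |u - m| := by fun_prop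
    exact hc.continuousAt.eventually_lt continuousAt_const (by rw [← hnr]; exact h1)
  have hround : ∀ᶠ u in 𝓝 t, round u = round t := by
    filter_upwards [hlt] with u hu
    have h2 : round (u - m) = 0 := by
      rw [round_eq_zero_iff]
      rw [abs_lt] at hu
      exact ⟨by linarith only [hu.1], hu.2⟩
    rw [hm, round_sub_intCast] at h2
    omega
  have hne : t ≠ m := by
    intro h
    rw [hnr, h] at h0
    simp at h0
  rcases lt_or_gt_of_ne hne with hlt' | hgt
  · have h3 : ∀ᶠ u in 𝓝 t, u < m := eventually_lt_nhds hlt'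
    have hs : sr t = -1 := by
      unfold sr
      rw [if_neg (not_le.mpr hlt')]
    filter_upwards [hround, h3] with u hu1 hu2
    refine ⟨?_, ?_⟩
    · rw [hs]
      unfold sr
      rw [hu1, if_neg (not_le.mpr hu2)]
    · unfold nr
      rw [hu1, hs, abs_of_neg (by linarith)]
      ring
  · have h3 : ∀ᶠ u in 𝓝 t, m < u := eventually_gt_nhds hgt
    have hs : sr t = 1 := by
      unfold sr
      rw [if_pos hgt.le]
    filter_upwards [hround, h3] with u hu1 hu2
    refine ⟨?_, ?_⟩
    · rw [hs]
      unfold sr
      rw [hu1, if_pos hu2.le]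
    · unfold nr
      rw [hu1, hs, abs_of_pos (by linarith)]
      ring

/-- the reflected field -/
noncomputable def mirrorField {n : ℕ} (X : (Fin n → ℝ) → (Fin n → ℝ)) (x : Fin n → ℝ) :
    Fin n → ℝ := fun i => sr (x i) * X (foldMap x) i

theorem mirrorField_eventually {n : ℕ} (X : (Fin n → ℝ) → (Fin n → ℝ)) {x : Fin n → ℝ}
    (hx : foldMap x ∈ openCube n) :
    mirrorField X =ᶠ[𝓝 x] fun y i => sr (x i) *
      X (fun j => (-2 * sr (x j) * round (x j)) + (2 * sr (x j)) * y j) i := by
  have h : ∀ᶠ y in 𝓝 x, ∀ i, sr (y i) = sr (x i) ∧ nr (y i) = sr (x i) * (y i - round (x i)) := by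
    rw [eventually_all]
    intro i
    have h1 := hx i
    unfold foldMap at h1
    exact (continuous_apply i).continuousAt.eventually
      (eventually_nr (t := x i) (by linarith [h1.1]) (by linarith [h1.2]))
  filter_upwards [h] with y hy
  ext i
  unfold mirrorField
  rw [(hy i).1]
  congr 2
  ext j
  unfold foldMap
  rw [(hy j).2]
  ring

theorem foldMap_eq {n : ℕ} {x : Fin n → ℝ} (hx : foldMap x ∈ openCube n) :
    (fun j => (-2 * sr (x j) * round (x j)) + (2 * sr (x j)) * x j) = foldMap x := by
  ext j
  have h1 := hx j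
  unfold foldMap at h1
  have h2 := (eventually_nr (t := x j) (by linarith [h1.1]) (by linarith [h1.2])).self_of_nhds
  unfold foldMap
  rw [h2.2]
  ring

theorem divergence_mirrorField {n : ℕ} {X : (Fin n → ℝ) → (Fin n → ℝ)} (hX : ContDiff ℝ 1 X)
    {x : Fin n → ℝ} (hx : foldMap x ∈ openCube n) :
    divergence (mirrorField X) x = 2 * divergence X (foldMap x) := by
  have h1 : divergence (mirrorField X) x = divergence (fun y i => sr (x i) *
      X (fun j => (-2 * sr (x j) * round (x j)) + (2 * sr (x j)) * y j) i) x := by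
    unfold divergence
    rw [(mirrorField_eventually X hx).fderiv_eq]
  rw [h1, divergence_diag (hX.differentiable one_ne_zero) _ _ _ 2 (fun i => by
    rw [show sr (x i) * (2 * sr (x i)) = 2 * (sr (x i) * sr (x i)) by ring, sr_sq]; ring),
    foldMap_eq hx]

theorem testField_mirrorField {n : ℕ} {X : (Fin n → ℝ) → (Fin n → ℝ)} (hX : InnerField X) :
    TestField (mirrorField X) where
  contDiff := by
    rw [contDiff_iff_contDiffAt]
    intro x
    by_cases hx : foldMap x ∈ tsupport X
    · exact (contDiff_diag hX.contDiff _ _ _).contDiffAt.congr_of_eventuallyEq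
        (mirrorField_eventually X (hX.support hx))
    · have h1 : ∀ᶠ y in 𝓝 x, foldMap y ∈ (tsupport X)ᶜ :=
        continuous_foldMap.continuousAt.eventually
          ((isClosed_tsupport X).isOpen_compl.mem_nhds hx)
      have h2 : mirrorField X =ᶠ[𝓝 x] fun _ => 0 := by
        filter_upwards [h1] with y hy
        ext i
        unfold mirrorField
        rw [image_eq_zero_of_notMem_tsupport hy]
        simp
      exact contDiffAt_const.congr_of_eventuallyEq h2
  periodic := by
    intro x k
    ext i
    unfold mirrorField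
    rw [foldMap_add, sr_add_int]
  bound := by
    intro x
    have h : ∀ i, mirrorField X x i ^ 2 = X (foldMap x) i ^ 2 := by
      intro i
      unfold mirrorField
      rw [mul_pow, sq (sr (x i)), sr_sq, one_mul]
    simp_rw [h]
    exact hX.bound _

theorem two_mul_relPerimeter_le {n : ℕ} {E : Set (Fin n → ℝ)} (hE : E ⊆ openCube n)
    (hm : MeasurableSet E) : 2 * relPerimeter E ≤ perimeter (mirror E) := by
  unfold relPerimeter
  rw [ENNReal.mul_iSup]
  apply iSup_le
  intro X
  rw [ENNReal.mul_iSup]
  apply iSup_le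
  intro hX
  have hT := testField_mirrorField hX
  refine le_trans (le_of_eq ?_) (le_iSup₂ (f := fun (X : (Fin n → ℝ) → (Fin n → ℝ))
    (_ : TestField X) => ENNReal.ofReal (∫ x in mirror E ∩ cube n, divergence X x))
    (mirrorField X) hT)
  rw [integral_mirror_fold hE hm (h := fun y => 2 * divergence X y)
    (integrableOn_cube (continuous_divergence hT.contDiff))
    (fun x hx => divergence_mirrorField hX.contDiff (hE hx)), integral_const_mul,
    ENNReal.ofReal_mul (by norm_num), inter_eq_left.mpr hE]
  congr 1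
  norm_num

end Vale.Agent.P232.H732
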